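import Vale.Agent.P280.H490.Along

/-! P280, stage 2: the pair `D` (weight `a`), `F` (weight `-a`) along the curve in the direction
of `a`: the value at `y` of `D ∘ F` on the function of degree one. -/

open DirectSum Vale.Agent.P280.T Vale.Agent.P280.H127

namespace Vale.Agent.P280.N.H142

open Vale.Agent.P280.N Vale.Agent.P280.H490

variable {r : ℕ} {R : Type} [CommRing R] [IsDomain R] [Algebra ℂ R]
  {𝒜 : ℕ × (Fin r → ℤ) → Submodule ℂ R} [GradedAlgebra 𝒜]

/-- The two fields along the curve. -/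
theorem pair_along (H : Hyp 𝒜) {y y' : FP 𝒜} {a : Fin r → ℤ} {n : ℕ}
    {φ : R →ₐ[ℂ] Polynomial ℂ} (hφ : Curve y y' a n φ) {D F : Derivation ℂ R R}
    (hD : H93.IsHField 𝒜 a D) (hF : H93.IsHField 𝒜 (-a) F) :
    ∃ b c : ℂ, (∀ d m, ∀ h ∈ 𝒜 (d, m), ∀ i : ℕ, ∀ e : ℂ,
        φ h = Polynomial.C e * Polynomial.X ^ i →
        φ (⁅D, F⁆ h) = Polynomial.C (b * c * (2 * i - d * n)) * φ h ∧
        φ (F h) = Polynomial.C (b * e * (i - d * n)) * Polynomial.X ^ (i + 1)) ∧
      (∀ h ∈ 𝒜 (1, y.ν), y.q (D (F h)) = -(b * c * n) * y.q h) ∧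
      ((∃ h, y.q (D h) ≠ 0) → c ≠ 0) ∧ ((∃ h, y'.q (F h) ≠ 0) → b ≠ 0) := by
  have ha := ne_zero_of_curve H hφ
  obtain ⟨c, hc⟩ := along_E H hφ hD
  obtain ⟨b, hb⟩ := along_F H hφ hF
  have hFd : ∀ d m, ∀ h ∈ 𝒜 (d, m), F h ∈ 𝒜 (d, m + a) := by
    intro d m h hh
    have := hF d m h hh
    rwa [sub_neg_eq_add] at this
  have h1 : ∀ d m, ∀ h ∈ 𝒜 (d, m), ∀ i : ℕ, ∀ e : ℂ,
      φ h = Polynomial.C e * Polynomial.X ^ i →
      φ (F h) = Polynomial.C (b * e * (i - d * n)) * Polynomial.X ^ (i + 1) := by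
    intro d m h hh i e he
    rw [hb d m h hh, he, Polynomial.derivative_C_mul_X_pow]
    rcases i with _ | i
    · simp only [Nat.cast_zero, mul_zero, Polynomial.C_0, zero_mul, pow_zero, mul_one,
        Polynomial.C_mul, Polynomial.C_sub]
      ring
    · have h5 : i + 1 - 1 = i := rfl
      rw [h5]
      push_cast
      simp only [Polynomial.C_mul, Polynomial.C_sub, Polynomial.C_add, Polynomial.C_1]
      ring
  refine ⟨b, c, ?_, ?_, ?_, ?_⟩
  · intro d m h hh i e he
    refine ⟨?_, h1 d m h hh i e he⟩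
    rw [Derivation.commutator_apply, map_sub, hc, h1 d m h hh i e he,
      hb d _ _ (hD d m h hh), hc, he, Polynomial.derivative_C_mul_X_pow,
      Polynomial.derivative_C_mul_X_pow]
    have h5 : i + 1 - 1 = i := rfl
    rw [h5]
    rcases i with _ | i
    · simp only [Nat.cast_zero, mul_zero, Polynomial.C_0, zero_mul, pow_zero, mul_one,
        Polynomial.derivative_zero]
      push_cast
      simp only [Polynomial.C_mul, Polynomial.C_neg, Polynomial.C_sub, Polynomial.C_0,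
        Polynomial.C_add, Polynomial.C_1, map_ofNat]
      ring
    · have h6 : i + 1 - 1 = i := rfl
      rw [h6, Polynomial.derivative_C_mul, Polynomial.derivative_C_mul_X_pow]
      rcases i with _ | i
      · simp only [zero_add, Nat.cast_zero, mul_zero, Polynomial.C_0, zero_mul, pow_zero, mul_one]
        push_cast
        simp only [Polynomial.C_mul, Polynomial.C_neg, Polynomial.C_sub, Polynomial.C_0,
          Polynomial.C_add, Polynomial.C_1, map_ofNat]
        ring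
      · have h7 : i + 1 - 1 = i := rfl
        rw [h7]
        push_cast
        simp only [Polynomial.C_mul, Polynomial.C_neg, Polynomial.C_sub, Polynomial.C_0,
          Polynomial.C_add, Polynomial.C_1, map_ofNat]
        ring
  · intro h hh
    have h2 : φ h = Polynomial.C (y.q h) * Polynomial.X ^ 0 := by
      obtain ⟨i, -, hm, e, he⟩ := form hφ hh
      by_cases h0 : φ h = 0
      · rw [← hφ.ev, h0, Polynomial.eval_zero, Polynomial.C_0, zero_mul]
      · have h3 := hm h0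
        rw [one_smul] at h3
        have h4 : i • a = 0 • a := by
          rw [zero_smul]
          exact left_eq_add.1 h3
        have h5 := nsmul_inj ha h4
        subst h5
        rw [← hφ.ev, he]
        simp
    rw [← hφ.ev, hc, h1 1 _ h hh 0 _ h2, Polynomial.derivative_C_mul_X_pow]
    simp
    ring
  · rintro ⟨h, hh⟩ rfl
    apply hh
    rw [← hφ.ev, hc, Polynomial.C_0, zero_mul, Polynomial.eval_zero]
  · rintro ⟨h, hh⟩ rfl
    apply hh
    obtain ⟨φ', hφ', hrel⟩ := exists_rev H hφ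
    have h3 : ∀ x, φ' (F x) = 0 := by
      have h4 : φ'.toLinearMap.comp (F : R →ₗ[ℂ] R) = 0 := by
        apply linearMap_ext_graded 𝒜
        rintro ⟨d, m⟩ h hh
        change φ' (F h) = 0
        rw [hrel d _ _ (hFd d m h hh) 0 (Nat.zero_le _) 0 (by
          rw [hb d m h hh, Polynomial.C_0, zero_mul, zero_mul]), Polynomial.C_0, zero_mul]
      exact fun x => LinearMap.congr_fun h4 x
    rw [← hφ'.ev, h3, Polynomial.eval_zero]

/-- The semisimple part of `[D, F]` on `a`, and the value of `D ∘ F`. -/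
theorem beta_eq (H : Hyp 𝒜) {y y' : FP 𝒜} {a : Fin r → ℤ} {n : ℕ}
    {φ : R →ₐ[ℂ] Polynomial ℂ} (hφ : Curve y y' a n φ) {D F : Derivation ℂ R R}
    (hD : H93.IsHField 𝒜 a D) (hF : H93.IsHField 𝒜 (-a) F) {α : ℂ} {β : (Fin r → ℤ) →+ ℂ}
    (hβ : ∀ d m, ∀ h ∈ 𝒜 (d, m), ∃ k : ℕ,
      (fun x : R => (⁅D, F⁆ : Derivation ℂ R R) x - ((d : ℂ) * α + β m) • x)^[k] h = 0) :
    ∃ b c : ℂ, β a = 2 * (b * c) ∧
      (∀ h ∈ 𝒜 (1, y.ν), y.q (D (F h)) = -(b * c * n) * y.q h) ∧
      ((∃ h, y.q (D h) ≠ 0) → c ≠ 0) ∧ ((∃ h, y'.q (F h) ≠ 0) → b ≠ 0) := by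
  obtain ⟨b, c, h1, h2, h3, h4⟩ := pair_along H hφ hD hF
  refine ⟨b, c, ?_, h2, h3, h4⟩
  have hG : ∀ d m, ∀ h ∈ 𝒜 (d, m), (⁅D, F⁆ : Derivation ℂ R R) h ∈ 𝒜 (d, m) := by
    intro d m h hh
    rw [Derivation.commutator_apply]
    have h5 := hD d _ _ (hF d m h hh)
    have h6 := hF d _ _ (hD d m h hh)
    rw [sub_neg_eq_add, add_sub_cancel_right] at h5
    rw [sub_neg_eq_add, sub_add_cancel] at h6
    exact sub_mem h5 h6
  have key : ∀ d m, ∀ h ∈ 𝒜 (d, m), ∀ i : ℕ, ∀ e : ℂ, e ≠ 0 →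
      φ h = Polynomial.C e * Polynomial.X ^ i →
      b * c * (2 * i - d * n) = (d : ℂ) * α + β m := by
    intro d m h hh i e he0 he
    obtain ⟨k, hk⟩ := hβ d m h hh
    have h5 : ∀ k : ℕ, ∃ x ∈ 𝒜 (d, m),
        (fun x : R => (⁅D, F⁆ : Derivation ℂ R R) x - ((d : ℂ) * α + β m) • x)^[k] h = x ∧
        φ x = Polynomial.C ((b * c * (2 * i - d * n) - ((d : ℂ) * α + β m)) ^ k * e) *
          Polynomial.X ^ i := by
      intro k
      induction k with
      | zero => exact ⟨h, hh, rfl, by rw [pow_zero, one_mul, he]⟩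
      | succ k ih =>
        obtain ⟨x, hx, hx1, hx2⟩ := ih
        refine ⟨(⁅D, F⁆ : Derivation ℂ R R) x - ((d : ℂ) * α + β m) • x,
          sub_mem (hG d m x hx) (Submodule.smul_mem _ _ hx), ?_, ?_⟩
        · rw [Function.iterate_succ_apply', hx1]
        · rw [map_sub, map_smul, (h1 d m x hx i _ hx2).1, hx2, Polynomial.smul_eq_C_mul,
            pow_succ]
          simp only [Polynomial.C_mul, Polynomial.C_sub, Polynomial.C_add, Polynomial.C_pow]
          ring
    obtain ⟨x, -, hx1, hx2⟩ := h5 k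
    rw [hk] at hx1
    rw [← hx1, map_zero] at hx2
    have h6 := congrArg (fun p => Polynomial.coeff p i) hx2
    simp only [Polynomial.coeff_zero, Polynomial.coeff_C_mul_X_pow, if_true] at h6
    rcases mul_eq_zero.1 h6.symm with h7 | h7
    · exact sub_eq_zero.1 (eq_zero_of_pow_eq_zero h7)
    · exact absurd h7 he0
  obtain ⟨d1, g, hg, hg1⟩ := hφ.un
  obtain ⟨i, -, him, e, he⟩ := form hφ hg
  have hi : i = 1 := by
    by_contra hi
    apply hg1
    rw [he, Polynomial.coeff_C_mul_X_pow, if_neg (fun h => hi h.symm)]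
  subst hi
  have he0 : e ≠ 0 := by
    rintro rfl
    apply hg1
    rw [he, Polynomial.C_0, zero_mul, Polynomial.coeff_zero]
  have k1 := key d1 _ g hg 1 e he0 he
  obtain ⟨d0, m0, g0, hd0, hg0, hq0⟩ : ∃ (d : ℕ) (m : Fin r → ℤ) (h : R), 0 < d ∧
      h ∈ 𝒜 (d, m) ∧ y.q h ≠ 0 := by
    by_contra hcon
    push Not at hcon
    exact y.nv fun d m hd h hh => hcon d m h hd hh
  have hm0 : m0 = d0 • y.ν := y.fix d0 m0 g0 hg0 hq0
  have hg0' : φ g0 = Polynomial.C (y.q g0) * Polynomial.X ^ 0 := by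
    obtain ⟨i, -, him, e, he⟩ := form hφ hg0
    have h0 : φ g0 ≠ 0 := by
      intro h0
      apply hq0
      rw [← hφ.ev, h0, Polynomial.eval_zero]
    have h3 := him h0
    have h4 : i • a = 0 • a := by
      rw [zero_smul]
      rw [hm0] at h3
      exact left_eq_add.1 h3
    have h5 := nsmul_inj (ne_zero_of_curve H hφ) h4
    subst h5
    rw [← hφ.ev, he]
    simp
  have k0 := key d0 _ g0 hg0 0 _ hq0 hg0'
  rw [hm0, map_nsmul, nsmul_eq_mul] at k0
  rw [map_add, map_nsmul, nsmul_eq_mul] at k1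
  have hd0' : (d0 : ℂ) ≠ 0 := by exact_mod_cast hd0.ne'
  have k2 : α + β y.ν = -(b * c * n) := by
    apply mul_left_cancel₀ hd0'
    push_cast at k0
    linear_combination -k0
  push_cast at k1
  linear_combination -k1 - (d1 : ℂ) * k2

end Vale.Agent.P280.N.H142
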