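import Vale.Agent.P280.N.M5

/-! P280: lifting of tangent vectors of boundary weights, for any torus. -/

open DirectSum Vale.Agent.P280.T Vale.Agent.P280.H127

namespace Vale.Agent.P280.N

variable {r : ℕ} {R : Type} [CommRing R] [Algebra ℂ R]
  {𝒜 : ℕ × (Fin r → ℤ) → Submodule ℂ R} [GradedAlgebra 𝒜]

/-- A tangent vector of weight `χ` is a weight vector for each refinement, if the weights have
multiplicity one. -/
theorem ref_weight_up {r' : ℕ} {𝒜' : ℕ × (Fin r' → ℤ) → Submodule ℂ R} [GradedAlgebra 𝒜']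
    {π : (Fin r' → ℤ) →+ (Fin r → ℤ)} (hr : ∀ d m', 𝒜' (d, m') ≤ 𝒜 (d, π m'))
    (hmult : ∀ x ν ω, ¬ IsVertex 𝒜 x → IsFixed 𝒜 x ν → TangentWeight 𝒜 x ν ω →
      ∀ v v' : R →ₗ[ℂ] ℂ, IsTangent x v → HasWeight 𝒜 ν ω v → IsTangent x v' →
        HasWeight 𝒜 ν ω v' → ∃ c c' : ℂ, (c ≠ 0 ∨ c' ≠ 0) ∧ ∀ h, c * v h + c' * v' h = 0)
    {x : R →ₐ[ℂ] ℂ} {ν' : Fin r' → ℤ} {χ : Fin r → ℤ} (hx0 : ¬ IsVertex 𝒜 x)
    (hx : IsFixed 𝒜' x ν') (hχ : TangentWeight 𝒜 x (π ν') χ) {v : R →ₗ[ℂ] ℂ}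
    (hv : IsTangent x v) (hw : HasWeight 𝒜 (π ν') χ v) (hv0 : v ≠ 0) :
    ∃ χ', π χ' = χ ∧ HasWeight 𝒜' ν' χ' v := by
  have h1 : ∃ i, ∃ h ∈ 𝒜' i, v h ≠ 0 := by
    by_contra hcon
    push Not at hcon
    exact hv0 (linearMap_ext_graded 𝒜' fun i a ha => by
      rw [hcon i a ha, LinearMap.zero_apply])
  obtain ⟨⟨d, m'⟩, h, hh, hne⟩ := h1
  have h2 : π (m' - d • ν') = χ := by
    rw [map_sub, map_nsmul, hw d _ h (hr d m' hh) hne]
    abel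
  refine ⟨m' - d • ν', h2, ?_⟩
  obtain ⟨v', hv', hw', he⟩ := exists_component hx hv (m' - d • ν')
  have h3 : v' h = v h := he h (mem_coarse hh (by rw [tw_apply]))
  obtain ⟨c, c', hc, hcc⟩ := hmult x (π ν') χ hx0 (ref_fixed hr hx) hχ v v' hv hw hv'
    (h2 ▸ ref_hasWeight hr hw')
  have h4 : c + c' = 0 := by
    have h5 := hcc h
    rw [h3, ← add_mul] at h5
    exact (mul_eq_zero.1 h5).resolve_right hne
  have hc0 : c ≠ 0 := by
    rintro rfl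
    rw [zero_add] at h4
    rcases hc with hc | hc
    · exact hc rfl
    · exact hc h4
  have h5 : v = v' := by
    ext a
    have h6 := hcc a
    have h7 : c' = -c := by linear_combination h4
    rw [h7] at h6
    have h8 : c * (v a - v' a) = 0 := by linear_combination h6
    exact sub_eq_zero.1 ((mul_eq_zero.1 h8).resolve_left hc0)
  rw [h5]
  exact hw'

/-- Tangent vectors whose weight is on the boundary of the hull are values of global fields. -/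
theorem liftable_boundary_all (hX : IsTorusManifold 𝒜) (hN : NefOnRationalCurves 𝒜)
    (hiso : ∀ x ν, ¬ IsVertex 𝒜 x → IsFixed 𝒜 x ν → ¬ TangentWeight 𝒜 x ν 0)
    (hind : ∀ x ν ω ω', ¬ IsVertex 𝒜 x → IsFixed 𝒜 x ν → TangentWeight 𝒜 x ν ω →
      TangentWeight 𝒜 x ν ω' → (∃ a b : ℤ, a ≠ 0 ∧ b ≠ 0 ∧ a • ω = b • ω') → ω = ω')
    (hmult : ∀ x ν ω, ¬ IsVertex 𝒜 x → IsFixed 𝒜 x ν → TangentWeight 𝒜 x ν ω →
      ∀ v v' : R →ₗ[ℂ] ℂ, IsTangent x v → HasWeight 𝒜 ν ω v → IsTangent x v' →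
        HasWeight 𝒜 ν ω v' → ∃ c c' : ℂ, (c ≠ 0 ∨ c' ≠ 0) ∧ ∀ h, c * v h + c' * v' h = 0)
    {χ : Fin r → ℤ} (l : (Fin r → ℤ) →+ ℤ) (hl : 0 < l χ)
    (hmax : ∀ y ξ ω, ¬ IsVertex 𝒜 y → IsFixed 𝒜 y ξ → TangentWeight 𝒜 y ξ ω → l ω ≤ l χ) :
    Liftable 𝒜 χ := by
  intro x ν hx0 hx hχ v hv hw
  by_cases hv0 : v = 0
  · refine ⟨0, fun d m h _ => ?_, fun h => ?_⟩
    · rw [Derivation.zero_apply]
      exact Submodule.zero_mem _
    · rw [Derivation.zero_apply, map_zero, hv0, LinearMap.zero_apply]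
  obtain ⟨r', 𝒜', hg, π, hr, ht⟩ := exists_maxTor hX
  have hdom := hX.domain
  have H : Hyp 𝒜' := ref_hyp hr ht hX hN hiso hind hmult
  obtain ⟨ν', rfl, hx'⟩ := ref_fixed_up hr hX hiso hx0 hx
  obtain ⟨χ', rfl, hw'⟩ := ref_weight_up hr hmult hx0 hx' hχ hv hw hv0
  have hx0' : ¬ IsVertex 𝒜' x := fun h1 => hx0 ((ref_vertex hr).1 h1)
  have hχ0 : χ' ≠ 0 := by
    rintro rfl
    rw [map_zero, map_zero] at hl
    exact lt_irrefl _ hl
  have hT : TangentWeight 𝒜' x ν' χ' := tangentWeight_of_ne hx' hχ0 hv hw' hv0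
  obtain ⟨D, hD, hDv⟩ := liftable_boundary H ⟨⟨x, ν', hx0', hx'⟩, hT⟩ (l.comp π) hl
    (fun ω ⟨y, hy⟩ => hmax y.q (π y.ν) (π ω) (fun h1 => y.nv ((ref_vertex hr).2 h1))
      (ref_fixed hr y.fix) (ref_weight hr hy)) x ν' hx0' hx' hT v hv hw'
  refine ⟨D, fun d m h hh => ?_, hDv⟩
  refine ref_ind hr (P := fun h => D h ∈ 𝒜 (d, m - π χ')) ?_ ?_ ?_ hh
  · rw [map_zero]
    exact Submodule.zero_mem _
  · intro a b ha hb
    rw [map_add]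
    exact Submodule.add_mem _ ha hb
  · rintro m' rfl a ha
    have h1 := hr d _ (hD d m' a ha)
    rwa [map_sub] at h1

end Vale.Agent.P280.N
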